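import Vale.Agent.P281.H498.KD.Gram
import Vale.Agent.P272.K.QN.H327.Frame

/-! P281 (helper413): theorem NU, row N3: linear algebra of Gram determinants. -/

open scoped ComplexConjugate ComplexOrder
open Matrix

set_option linter.all false

noncomputable section

namespace Vale.Agent.P281.H413.NU

open Vale.Agent.P272.K Vale.Agent.P281.H713.KD
open Vale.Agent.P299.H882 (qf)

variable {n p : ℕ}

/-- Cauchy-Binet for a diagonal matrix -/
theorem gram_diag (c : Matrix (Fin p) (Fin n) ℂ) (h : Fin n → ℝ) :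
    (p.factorial : ℝ) * (c * diagonal (fun k => ((h k : ℝ) : ℂ)) * cᴴ).det.re =
      ∑ L : Fin p → Fin n, ‖(c.submatrix id L).det‖ ^ 2 * ∏ a, h (L a) := by
  have h1 := Vale.Agent.P281.H498.block_sum c (diagonal fun k => ((h k : ℝ) : ℂ))
  have h2 : ∀ L : Fin p → Fin n, ∑ L' : Fin p → Fin n, (c.submatrix id L).det *
      (starRingEnd ℂ) (c.submatrix id L').det *
        ∏ a, (diagonal fun k => ((h k : ℝ) : ℂ)) (L a) (L' a) =
      ((‖(c.submatrix id L).det‖ ^ 2 * ∏ a, h (L a) : ℝ) : ℂ) := by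
    intro L
    rw [Finset.sum_eq_single L]
    · simp only [diagonal_apply_eq]
      rw [Complex.mul_conj, Complex.normSq_eq_norm_sq]
      push_cast
      ring
    · intro L' _ hL'
      obtain ⟨a, ha⟩ : ∃ a, L' a ≠ L a := by
        by_contra hcon
        push Not at hcon
        exact hL' (funext hcon)
      rw [Finset.prod_eq_zero (Finset.mem_univ a), mul_zero]
      exact diagonal_apply_ne _ (Ne.symm ha)
    · intro h0
      exact absurd (Finset.mem_univ L) h0
  rw [Finset.sum_congr rfl fun L _ => h2 L, ← Complex.ofReal_sum] at h1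
  have h3 := congrArg Complex.re h1
  rw [Complex.ofReal_re] at h3
  rw [h3]
  have : ((p.factorial : ℂ)) = (((p.factorial : ℝ)) : ℂ) := by push_cast; rfl
  rw [this, Complex.re_ofReal_mul]

section frame

variable {T U : Matrix (Fin n) (Fin n) ℂ} (hUT : U * T = 1) (hTU : T * U = 1)

include hUT hTU

lemma gramD_frame (b : Matrix (Fin p) (Fin n) ℂ) {a : Fin n → ℝ} (ha : ∀ k, 0 < a k) :
    gramD b (T * diagonal (fun k => ((a k : ℝ) : ℂ)) * Tᴴ) =
      ((b * Uᵀ) * diagonal (fun k => (((a k)⁻¹ : ℝ) : ℂ)) * (b * Uᵀ)ᴴ).det.re := by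
  unfold gramD
  rw [Vale.Agent.P299.H882.inv_frame hUT hTU ha]
  congr 2
  rw [transpose_mul, transpose_mul, diagonal_transpose, conjTranspose_mul]
  have : (Uᴴ)ᵀ = (Uᵀ)ᴴ := by
    ext i j
    simp [conjTranspose_apply, transpose_apply]
  rw [this]
  simp only [Matrix.mul_assoc]

end frame

/-- the Gram determinant in a frame -/
lemma gram_nonneg {b : Matrix (Fin p) (Fin n) ℂ} {g : Matrix (Fin n) (Fin n) ℂ} (hg : g.PosDef) :
    0 ≤ gramD b g := by
  obtain ⟨T, U, β, hβ, hUT, hTU, h1, h2⟩ := QN.H327.exists_frame hg Matrix.PosSemidef.zero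
  have h1' : g = T * diagonal (fun _ => ((1 : ℝ) : ℂ)) * Tᴴ := by
    rw [Vale.Agent.P299.H882.diag_one_eq, mul_one]; exact h1
  rw [h1', gramD_frame hUT hTU b (fun _ => one_pos)]
  have h3 := gram_diag (b * Uᵀ) (fun _ : Fin n => ((1 : ℝ))⁻¹)
  have h4 : 0 ≤ (p.factorial : ℝ) * ((b * Uᵀ) *
      diagonal (fun k : Fin n => ((((1 : ℝ))⁻¹ : ℝ) : ℂ)) * (b * Uᵀ)ᴴ).det.re := by
    rw [h3]
    refine Finset.sum_nonneg fun L _ => ?_
    have : (0 : ℝ) ≤ ∏ a : Fin p, ((1 : ℝ))⁻¹ := by simp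
    positivity
  exact nonneg_of_mul_nonneg_right h4 (by exact_mod_cast p.factorial_pos)

/-- `|dy|²_G det G ≤ |dy|²_g (tr_g G) ^ (n - p) det g` -/
theorem gram_le {b : Matrix (Fin p) (Fin n) ℂ} {g G : Matrix (Fin n) (Fin n) ℂ} (hg : g.PosDef)
    (hG : G.PosDef) :
    gramD b G * G.det.re ≤ gramD b g * (g⁻¹ * G).trace.re ^ (n - p) * g.det.re := by
  obtain ⟨T, U, β, hβ, hUT, hTU, h1, h2⟩ := QN.H327.exists_frame hg hG.posSemidef
  have h1' : g = T * diagonal (fun _ => ((1 : ℝ) : ℂ)) * Tᴴ := by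
    rw [Vale.Agent.P299.H882.diag_one_eq, mul_one]; exact h1
  have hβ' : ∀ k, 0 < β k := by
    intro k
    refine lt_of_le_of_ne (hβ k) fun h0 => ?_
    have h3 := hG.det_pos
    have h4 := Vale.Agent.P299.H882.det_frame (T := T) β
    rw [← h2, Finset.prod_eq_zero (Finset.mem_univ k) h0.symm, mul_zero] at h4
    have := (Complex.lt_def.1 h3).1
    rw [h4] at this
    exact lt_irrefl _ this
  have q3 : (g⁻¹ * G).trace.re = ∑ k, β k := by
    have e1 : g⁻¹ = Uᴴ * U := by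
      rw [h1', Vale.Agent.P299.H882.inv_frame hUT hTU (fun _ => one_pos)]
      have : (diagonal (fun _ : Fin n => ((((1:ℝ))⁻¹ : ℝ) : ℂ)) : Matrix (Fin n) (Fin n) ℂ) = 1 := by
        rw [inv_one]; exact Vale.Agent.P299.H882.diag_one_eq
      rw [this, mul_one]
    have h3 : Tᴴ * Uᴴ = 1 := by rw [← conjTranspose_mul, hUT, conjTranspose_one]
    rw [e1, h2, Matrix.trace_mul_comm]
    have e2 : T * diagonal (fun k => ((β k : ℝ) : ℂ)) * Tᴴ * (Uᴴ * U) =
        T * diagonal (fun k => ((β k : ℝ) : ℂ)) * (Tᴴ * Uᴴ) * U := by noncomm_ring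
    rw [e2, h3, mul_one, Matrix.trace_mul_comm, ← Matrix.mul_assoc, hUT, one_mul,
      Matrix.trace_diagonal, Complex.re_sum]
    simp
  rw [q3]
  set t : ℝ := ∑ k, β k with ht
  have hβt : ∀ k, β k ≤ t := fun k =>
    Finset.single_le_sum (f := β) (fun i _ => hβ i) (Finset.mem_univ k)
  have hd1 : g.det.re = ‖T.det‖ ^ 2 := by
    conv_lhs => rw [h1']
    rw [Vale.Agent.P299.H882.det_frame]
    simp
  have hd2 : G.det.re = ‖T.det‖ ^ 2 * ∏ k, β k := by
    conv_lhs => rw [h2]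
    exact Vale.Agent.P299.H882.det_frame _
  have hg1 : (p.factorial : ℝ) * gramD b g =
      ∑ L : Fin p → Fin n, ‖((b * Uᵀ).submatrix id L).det‖ ^ 2 := by
    conv_lhs => rw [h1']
    rw [gramD_frame hUT hTU b (fun _ => one_pos), gram_diag]
    refine Finset.sum_congr rfl fun L _ => ?_
    simp
  have hG1 : (p.factorial : ℝ) * gramD b G =
      ∑ L : Fin p → Fin n, ‖((b * Uᵀ).submatrix id L).det‖ ^ 2 * ∏ a, (β (L a))⁻¹ := by
    conv_lhs => rw [h2]
    rw [gramD_frame hUT hTU b hβ', gram_diag]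
  have hp : (0 : ℝ) < p.factorial := by exact_mod_cast p.factorial_pos
  have key : ((p.factorial : ℝ) * gramD b G) * ∏ k, β k ≤
      ((p.factorial : ℝ) * gramD b g) * t ^ (n - p) := by
    rw [hg1, hG1, Finset.sum_mul, Finset.sum_mul]
    refine Finset.sum_le_sum fun L _ => ?_
    by_cases hL : Function.Injective L
    · rw [mul_assoc]
      refine mul_le_mul_of_nonneg_left ?_ (by positivity)
      classical
      have hs : ∏ k, β k = (∏ a, β (L a)) * ∏ k ∈ Finset.univ \ Finset.univ.image L, β k := by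
        rw [← Finset.prod_image (s := Finset.univ) (g := L) (f := β) (fun x _ y _ h => hL h),
          mul_comm]
        exact (Finset.prod_sdiff (Finset.subset_univ _)).symm
      rw [hs, ← mul_assoc, ← Finset.prod_mul_distrib,
        Finset.prod_congr rfl fun a _ => inv_mul_cancel₀ (hβ' (L a)).ne', Finset.prod_const_one,
        one_mul]
      calc ∏ k ∈ Finset.univ \ Finset.univ.image L, β k
          ≤ ∏ k ∈ Finset.univ \ Finset.univ.image L, t :=
            Finset.prod_le_prod (fun k _ => hβ k) fun k _ => hβt k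
        _ = t ^ (n - p) := by
          rw [Finset.prod_const, Finset.card_sdiff_of_subset (Finset.subset_univ _),
            Finset.card_image_of_injective _ hL]
          simp
    · have h0 : ((b * Uᵀ).submatrix id L).det = 0 := by
        rw [Function.Injective] at hL
        push Not at hL
        obtain ⟨i, j, hij, hne⟩ := hL
        exact Matrix.det_zero_of_column_eq hne fun k => by simp [hij]
      rw [h0]
      simp
  have key2 : gramD b G * ∏ k, β k ≤ gramD b g * t ^ (n - p) := by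
    have : (p.factorial : ℝ) * (gramD b G * ∏ k, β k) ≤
        (p.factorial : ℝ) * (gramD b g * t ^ (n - p)) := by
      calc (p.factorial : ℝ) * (gramD b G * ∏ k, β k) =
          ((p.factorial : ℝ) * gramD b G) * ∏ k, β k := by ring
        _ ≤ _ := key
        _ = _ := by ring
    exact le_of_mul_le_mul_left this hp
  rw [hd1, hd2]
  calc gramD b G * (‖T.det‖ ^ 2 * ∏ k, β k) = (gramD b G * ∏ k, β k) * ‖T.det‖ ^ 2 := by ring
    _ ≤ (gramD b g * t ^ (n - p)) * ‖T.det‖ ^ 2 :=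
      mul_le_mul_of_nonneg_right key2 (by positivity)

/-- `|det c|² ≤ p! ∑_σ ∏ |c_{a, σ a}|²` -/
lemma norm_det_sq_le (c : Matrix (Fin p) (Fin p) ℂ) :
    ‖c.det‖ ^ 2 ≤ (p.factorial : ℝ) * ∑ σ : Equiv.Perm (Fin p), ∏ a, ‖c (σ a) a‖ ^ 2 := by
  have h1 : ‖c.det‖ ≤ ∑ σ : Equiv.Perm (Fin p), ∏ a, ‖c (σ a) a‖ := by
    rw [Matrix.det_apply']
    refine (norm_sum_le _ _).trans (Finset.sum_le_sum fun σ _ => ?_)
    rw [norm_mul, norm_prod]
    have : ‖((Equiv.Perm.sign σ : ℤ) : ℂ)‖ = 1 := by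
      rcases Int.units_eq_one_or (Equiv.Perm.sign σ) with h | h <;> simp [h]
    rw [this, one_mul]
  calc ‖c.det‖ ^ 2 ≤ (∑ σ : Equiv.Perm (Fin p), ∏ a, ‖c (σ a) a‖) ^ 2 :=
        pow_le_pow_left₀ (norm_nonneg _) h1 2
    _ ≤ (Fintype.card (Equiv.Perm (Fin p)) : ℝ) *
        ∑ σ : Equiv.Perm (Fin p), (∏ a, ‖c (σ a) a‖) ^ 2 := by
        have := sq_sum_le_card_mul_sum_sq (s := (Finset.univ : Finset (Equiv.Perm (Fin p))))
          (f := fun σ => ∏ a, ‖c (σ a) a‖)
        rwa [Finset.card_univ] at this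
    _ = _ := by
        rw [Fintype.card_perm, Fintype.card_fin]
        simp only [Finset.prod_pow]

/-- `|dy|²_g ≤ p! ∏ |dy_j|²_g` -/
theorem gram_le_prod {b : Matrix (Fin p) (Fin n) ℂ} {g : Matrix (Fin n) (Fin n) ℂ}
    (hg : g.PosDef) : gramD b g ≤ (p.factorial : ℝ) * ∏ a, qf g (b a) := by
  obtain ⟨T, U, β, hβ, hUT, hTU, h1, h2⟩ := QN.H327.exists_frame hg Matrix.PosSemidef.zero
  have h1' : g = T * diagonal (fun _ => ((1 : ℝ) : ℂ)) * Tᴴ := by
    rw [Vale.Agent.P299.H882.diag_one_eq, mul_one]; exact h1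
  have hq : ∀ a, qf g (b a) = ∑ k, ‖(b * Uᵀ) a k‖ ^ 2 := by
    intro a
    conv_lhs => rw [h1']
    rw [Vale.Agent.P299.H882.qf_frame hUT hTU (fun _ => one_pos)]
    refine Finset.sum_congr rfl fun k _ => ?_
    have : (U *ᵥ b a) k = (b * Uᵀ) a k := by
      rw [Matrix.mul_apply, Matrix.mulVec, dotProduct]
      refine Finset.sum_congr rfl fun l _ => ?_
      rw [transpose_apply, mul_comm]
    rw [this]
    simp
  have hg1 : (p.factorial : ℝ) * gramD b g =
      ∑ L : Fin p → Fin n, ‖((b * Uᵀ).submatrix id L).det‖ ^ 2 := by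
    conv_lhs => rw [h1']
    rw [gramD_frame hUT hTU b (fun _ => one_pos), gram_diag]
    refine Finset.sum_congr rfl fun L _ => ?_
    simp
  have hp : (0 : ℝ) < p.factorial := by exact_mod_cast p.factorial_pos
  have h3 : (p.factorial : ℝ) * gramD b g ≤
      (p.factorial : ℝ) * ((p.factorial : ℝ) * ∏ a, qf g (b a)) := by
    rw [hg1]
    calc ∑ L : Fin p → Fin n, ‖((b * Uᵀ).submatrix id L).det‖ ^ 2
        ≤ ∑ L : Fin p → Fin n, (p.factorial : ℝ) * ∑ σ : Equiv.Perm (Fin p),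
          ∏ a, ‖(b * Uᵀ) (σ a) (L a)‖ ^ 2 := Finset.sum_le_sum fun L _ => by
            have := norm_det_sq_le ((b * Uᵀ).submatrix id L)
            simpa using this
      _ = (p.factorial : ℝ) * ∑ σ : Equiv.Perm (Fin p), ∑ L : Fin p → Fin n,
          ∏ a, ‖(b * Uᵀ) (σ a) (L a)‖ ^ 2 := by
          rw [← Finset.mul_sum, Finset.sum_comm]
      _ = (p.factorial : ℝ) * ∑ σ : Equiv.Perm (Fin p), ∏ a, qf g (b a) := by
          congr 1
          refine Finset.sum_congr rfl fun σ _ => ?_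
          rw [← Equiv.prod_comp σ fun a => qf g (b a)]
          simp only [hq]
          rw [Finset.prod_univ_sum, Fintype.piFinset_univ]
      _ = (p.factorial : ℝ) * ((p.factorial : ℝ) * ∏ a, qf g (b a)) := by
          rw [Finset.sum_const, Finset.card_univ, Fintype.card_perm, Fintype.card_fin,
            nsmul_eq_mul]
  exact le_of_mul_le_mul_left h3 hp

/-- `|ξ|²_g ≤ tr_g χ |ξ|²_χ` -/
lemma qf_le_tr {g χ : Matrix (Fin n) (Fin n) ℂ} (hg : g.PosDef) (hχ : χ.PosDef) {C : ℝ}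
    {ξ : Fin n → ℂ} (h : qf χ ξ ≤ C) : qf g ξ ≤ (g⁻¹ * χ).trace.re * C :=
  (Vale.Agent.P299.H882.qf_le hg hχ ξ).trans (mul_le_mul_of_nonneg_left h
    (Complex.le_def.1 (C2.trace_mul_nonneg hg.inv.posSemidef hχ.posSemidef)).1)

/-- the pointwise inequality: `|dy|²_G det G` for the products of the `|dy_j|²_g`, `j < k` -/
theorem pt_le {b : Matrix (Fin p) (Fin n) ℂ} {g G χ : Matrix (Fin n) (Fin n) ℂ} (hg : g.PosDef)
    (hG : G.PosDef) (hχ : χ.PosDef) {k : ℕ} (hk : k ≤ p) {C : ℝ}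
    (hC : ∀ a : Fin p, k ≤ a.1 → qf χ (b a) ≤ C) (t : Fin k → ℝ)
    (ht : ∀ j, qf g (b (Fin.castLE hk j)) ≤ t j) :
    gramD b G * G.det.re ≤ (p.factorial * C ^ (p - k)) * (g⁻¹ * G).trace.re ^ (n - p) *
      (∏ j, t j) * (g⁻¹ * χ).trace.re ^ (p - k) * g.det.re := by
  classical
  have hq0 : ∀ a, 0 ≤ qf g (b a) := fun a => Vale.Agent.P299.H882.qf_nonneg hg _
  have htr : 0 ≤ (g⁻¹ * χ).trace.re :=
    (Complex.le_def.1 (C2.trace_mul_nonneg hg.inv.posSemidef hχ.posSemidef)).1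
  have htG : 0 ≤ (g⁻¹ * G).trace.re :=
    (Complex.le_def.1 (C2.trace_mul_nonneg hg.inv.posSemidef hG.posSemidef)).1
  have hdet : 0 ≤ g.det.re := (Complex.le_def.1 hg.det_pos.le).1
  have hsplit : ∏ a, qf g (b a) = (∏ j : Fin k, qf g (b (Fin.castLE hk j))) *
      ∏ a ∈ Finset.univ.filter (fun a : Fin p => ¬ a.1 < k), qf g (b a) := by
    rw [← Finset.prod_filter_mul_prod_filter_not Finset.univ (fun a : Fin p => a.1 < k)]
    congr 1
    refine Finset.prod_bij' (i := fun a ha => (⟨a.1, (Finset.mem_filter.1 ha).2⟩ : Fin k))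
      (j := fun j _ => Fin.castLE hk j) ?_ ?_ ?_ ?_ ?_
    · intro a ha; exact Finset.mem_univ _
    · intro j _; exact Finset.mem_filter.2 ⟨Finset.mem_univ _, j.2⟩
    · intro a ha; ext; rfl
    · intro j _; ext; rfl
    · intro a ha; rfl
  have hcard : (Finset.univ.filter fun a : Fin p => ¬ a.1 < k).card = p - k := by
    have h1 : (Finset.univ.filter fun a : Fin p => a.1 < k).card = k := by
      have h2 : (Finset.univ.filter fun a : Fin p => a.1 < k) =
          Finset.univ.map ⟨Fin.castLE hk, Fin.castLE_injective hk⟩ := by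
        ext a
        simp only [Finset.mem_filter, Finset.mem_univ, true_and, Finset.mem_map,
          Function.Embedding.coeFn_mk]
        constructor
        · intro ha; exact ⟨⟨a.1, ha⟩, by ext; rfl⟩
        · rintro ⟨j, rfl⟩; exact j.2
      rw [h2, Finset.card_map, Finset.card_univ, Fintype.card_fin]
    have h3 := Finset.card_filter_add_card_filter_not (s := (Finset.univ : Finset (Fin p)))
      (fun a : Fin p => a.1 < k)
    rw [h1, Finset.card_univ, Fintype.card_fin] at h3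
    omega
  have hrest : ∏ a ∈ Finset.univ.filter (fun a : Fin p => ¬ a.1 < k), qf g (b a) ≤
      ((g⁻¹ * χ).trace.re * C) ^ (p - k) := by
    rw [← hcard, ← Finset.prod_const]
    refine Finset.prod_le_prod (fun a _ => hq0 a) fun a ha => ?_
    exact qf_le_tr hg hχ (hC a (not_lt.1 (Finset.mem_filter.1 ha).2))
  have hfirst : ∏ j : Fin k, qf g (b (Fin.castLE hk j)) ≤ ∏ j, t j :=
    Finset.prod_le_prod (fun j _ => hq0 _) fun j _ => ht j
  have hfirst0 : 0 ≤ ∏ j, t j :=
    Finset.prod_nonneg fun j _ => (hq0 _).trans (ht j)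
  have hprod : ∏ a, qf g (b a) ≤ (∏ j, t j) * ((g⁻¹ * χ).trace.re * C) ^ (p - k) := by
    rw [hsplit]
    exact mul_le_mul hfirst hrest (Finset.prod_nonneg fun a _ => hq0 a) hfirst0
  calc gramD b G * G.det.re
      ≤ gramD b g * (g⁻¹ * G).trace.re ^ (n - p) * g.det.re := gram_le hg hG
    _ ≤ ((p.factorial : ℝ) * ((∏ j, t j) * ((g⁻¹ * χ).trace.re * C) ^ (p - k))) *
          (g⁻¹ * G).trace.re ^ (n - p) * g.det.re := by
        refine mul_le_mul_of_nonneg_right (mul_le_mul_of_nonneg_right ?_ (by positivity)) hdet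
        exact (gram_le_prod hg).trans (mul_le_mul_of_nonneg_left hprod (by positivity))
    _ = _ := by rw [mul_pow]; ring

/-- for `v = log (1 + |u|²)`: `i∂∂̄v = ∂u ⊗ ∂u* / (1 + |u|²)²` has trace `|∂u|²_g / (1 + |u|²)²` -/
lemma qf_smul_eq (g : Matrix (Fin n) (Fin n) ℂ) (ξ : Fin n → ℂ) (c : ℝ) :
    (g⁻¹ * ((c : ℂ) • vecMulVec ξ (star ξ))).trace.re = c * qf g ξ := by
  rw [Matrix.mul_smul, Matrix.trace_smul, smul_eq_mul, Complex.re_ofReal_mul]
  rfl

end Vale.Agent.P281.H413.NU
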