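import Vale.Agent.P281.H342.NU.Iface
import Vale.Agent.P281.H413.NU.LA
import Vale.Agent.P272.K.QN.H527.Mat

/-! P281 (helper413): theorem NU, row N3: `LinPart`, `HadPart`, `bdet_eq`. -/

open scoped ComplexConjugate ComplexOrder
open Matrix

set_option linter.all false

noncomputable section

namespace Vale.Agent.P281.H413.NU

open Vale.Agent.P272.K Vale.Agent.P281.H713.KD
open Vale.Agent.P299.H882 (qf)

variable {n p : ℕ}

/-- **Row N3 (a)** -/
theorem linPart : Vale.Agent.P281.H342.NU.LinPart := by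
  intro n p d hn b G g hG hg
  have h := gram_le (b := b) hg hG
  have hd : n - p = d := by omega
  rw [hd] at h
  calc gramD b G * G.det.re ≤ gramD b g * (g⁻¹ * G).trace.re ^ d * g.det.re := h
    _ = _ := by ring

/-- Hadamard's inequality -/
theorem hadamard {M : Matrix (Fin p) (Fin p) ℂ} (hM : M.PosSemidef) :
    M.det.re ≤ ∏ i, (M i i).re := by
  rcases Nat.eq_zero_or_pos p with rfl | hp
  · simp
  have hdiag : ∀ i, 0 ≤ (M i i).re := fun i => (Complex.le_def.1 (hM.diag_nonneg (i := i))).1
  have hdiag' : ∀ i, M i i = (((M i i).re : ℝ) : ℂ) := by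
    intro i
    have := (Complex.le_def.1 (hM.diag_nonneg (i := i))).2
    apply Complex.ext
    · simp
    · simpa using this.symm
  have key : ∀ ε : ℝ, 0 < ε → M.det.re ≤ ∏ i, ((M i i).re + ε) := by
    intro ε hε
    set a : Fin p → ℝ := fun i => (M i i).re + ε with ha
    have ha0 : ∀ i, 0 < a i := fun i => add_pos_of_nonneg_of_pos (hdiag i) hε
    have hg : (diagonal fun i => ((a i : ℝ) : ℂ)).PosDef := by
      rw [Matrix.posDef_diagonal_iff]
      intro i
      exact_mod_cast ha0 i
    have h1 := QN.amgm_pair (n := p) hp hg hM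
    have h2 : ((diagonal fun i => ((a i : ℝ) : ℂ))⁻¹ * M).trace.re ≤ p := by
      have e1 : (diagonal fun i => ((a i : ℝ) : ℂ))⁻¹ =
          diagonal fun i => (((a i)⁻¹ : ℝ) : ℂ) := by
        apply Matrix.inv_eq_right_inv
        rw [diagonal_mul_diagonal, ← diagonal_one]
        congr 1
        funext k
        rw [← Complex.ofReal_mul, mul_inv_cancel₀ (ha0 k).ne', Complex.ofReal_one]
      rw [e1, Matrix.trace, Complex.re_sum]
      calc ∑ i, (((diagonal fun i => (((a i)⁻¹ : ℝ) : ℂ)) * M).diag i).re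
          = ∑ i, (a i)⁻¹ * (M i i).re := by
            refine Finset.sum_congr rfl fun i _ => ?_
            rw [Matrix.diag_apply, Matrix.diagonal_mul, Complex.re_ofReal_mul]
        _ ≤ ∑ i : Fin p, 1 := by
            refine Finset.sum_le_sum fun i _ => ?_
            rw [inv_mul_le_iff₀ (ha0 i), mul_one]
            show (M i i).re ≤ (M i i).re + ε
            linarith
        _ = p := by simp
    have hdg : (diagonal fun i => ((a i : ℝ) : ℂ)).det.re = ∏ i, a i := by
      rw [det_diagonal, ← Complex.ofReal_prod, Complex.ofReal_re]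
    rw [hdg] at h1
    have hprod : 0 < ∏ i, a i := Finset.prod_pos fun i _ => ha0 i
    have hp' : (0 : ℝ) < p := by exact_mod_cast hp
    have h3 : (M.det.re / ∏ i, a i) ^ (1 / (p : ℝ)) ≤ 1 := by
      have := h1.trans h2
      exact le_of_mul_le_mul_left (by rw [mul_one]; exact this) hp'
    have h4 : M.det.re / ∏ i, a i ≤ 1 := by
      by_contra hcon
      push Not at hcon
      have := Real.one_lt_rpow hcon (show 0 < 1 / (p : ℝ) by positivity)
      linarith
    rwa [div_le_one hprod] at h4
  have hcont : Continuous fun ε : ℝ => ∏ i, ((M i i).re + ε) := by fun_prop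
  have hlim : Filter.Tendsto (fun ε : ℝ => ∏ i, ((M i i).re + ε))
      (nhdsWithin 0 (Set.Ioi 0)) (nhds (∏ i, ((M i i).re + 0))) :=
    (hcont.tendsto 0).mono_left nhdsWithin_le_nhds
  simp only [add_zero] at hlim
  refine ge_of_tendsto hlim ?_
  filter_upwards [self_mem_nhdsWithin] with ε hε using key ε hε

/-- **Row N3 (b)** -/
theorem hadPart : Vale.Agent.P281.H342.NU.HadPart := by
  intro n p b c g hg
  have hH : ((g⁻¹).transpose).PosSemidef := hg.inv.posSemidef.transpose
  have hM : ((c * b) * (g⁻¹).transpose * (c * b).conjTranspose).PosSemidef :=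
    hH.mul_mul_conjTranspose_same _
  have h1 := hadamard hM
  have h2 : ‖c.det‖ ^ 2 * gramD b g =
      ((c * b) * (g⁻¹).transpose * (c * b).conjTranspose).det.re := by
    have e : (c * b) * (g⁻¹).transpose * (c * b).conjTranspose =
        c * (b * (g⁻¹).transpose * b.conjTranspose) * c.conjTranspose := by
      rw [conjTranspose_mul]
      simp only [Matrix.mul_assoc]
    rw [e, det_mul, det_mul, det_conjTranspose]
    have e2 : c.det * (b * (g⁻¹).transpose * b.conjTranspose).det * star c.det =
        ((‖c.det‖ ^ 2 : ℝ) : ℂ) * (b * (g⁻¹).transpose * b.conjTranspose).det := by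
      rw [mul_right_comm, RCLike.star_def, Complex.mul_conj, Complex.normSq_eq_norm_sq]
    rw [e2, Complex.re_ofReal_mul]
    rfl
  have h3 : ∀ i, (((c * b) * (g⁻¹).transpose * (c * b).conjTranspose) i i).re =
      qf g ((c * b) i) := by
    intro i
    generalize c * b = B
    unfold qf
    congr 1
    rw [Matrix.mul_apply, Matrix.trace]
    simp only [Matrix.diag_apply, Matrix.mul_apply, Matrix.vecMulVec_apply, transpose_apply,
      conjTranspose_apply, Pi.star_apply, Finset.sum_mul]
    refine Finset.sum_congr rfl fun k _ => Finset.sum_congr rfl fun l _ => ?_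
    ring
  rw [h2]
  refine h1.trans (le_of_eq ?_)
  exact Finset.prod_congr rfl fun i _ => h3 i

/-- **(c)** the bordered determinant -/
theorem bdet_eq (b : Matrix (Fin p) (Fin n) ℂ) {A : Matrix (Fin n) (Fin n) ℂ} (hA : A.PosDef) :
    Vale.Agent.P281.H342.NU.bdet b A = A.det.re * gramD b A := by
  have hu : IsUnit A.det := isUnit_iff_ne_zero.2 hA.det_pos.ne'
  have hut : IsUnit (Aᵀ).det := by rw [det_transpose]; exact hu
  letI : Invertible Aᵀ := Matrix.invertibleOfIsUnitDet _ hut
  unfold Vale.Agent.P281.H342.NU.bdet gramD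
  rw [Matrix.det_fromBlocks₁₁, zero_sub, Matrix.det_neg, Fintype.card_fin, det_transpose,
    Matrix.invOf_eq_nonsing_inv, ← Matrix.transpose_nonsing_inv]
  have hr : ((A.det.re : ℝ) : ℂ) = A.det := by
    have := hA.det_pos
    rw [Complex.lt_def] at this
    apply Complex.ext
    · simp
    · simpa using this.2
  have e : (-1 : ℂ) ^ p * (A.det * ((-1) ^ p * (b * (A⁻¹)ᵀ * bᴴ).det)) =
      ((A.det.re : ℝ) : ℂ) * (b * (A⁻¹)ᵀ * bᴴ).det := by
    rw [hr]
    have : (-1 : ℂ) ^ p * (-1) ^ p = 1 := by
      rw [← mul_pow]; simp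
    calc (-1 : ℂ) ^ p * (A.det * ((-1) ^ p * (b * (A⁻¹)ᵀ * bᴴ).det))
        = ((-1 : ℂ) ^ p * (-1) ^ p) * (A.det * (b * (A⁻¹)ᵀ * bᴴ).det) := by ring
      _ = _ := by rw [this, one_mul]
  rw [e, Complex.re_ofReal_mul]

end Vale.Agent.P281.H413.NU
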