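import Vale.Agent.P281.H413.NU.Bd

/-! P281 (helper413): theorem NU: the Laplacian of `log (1 + |u|²)`. -/

open scoped Manifold ContDiff Topology ComplexOrder
open Set Filter

set_option linter.all false

noncomputable section

namespace Vale.Agent.P281.H413.NU

open Vale.Agent.P272.K Vale.Agent.P272.K.AMP Vale.Agent.P281 Vale.Agent.P281.H949.GM
open Vale.Agent.P299 Vale.Agent.P299.H223
open Vale.Agent.P281.H342.NU (IsTube tubeF rowsY bdet)
open Vale.Agent.P299.H882 (qf)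

section loc

variable {n : ℕ} {u : Cm n → ℂ} {z : Cm n}

/-- `i∂∂̄|u|²` -/
lemma cHess_sqn (hu : ContDiffAt ℂ ω u z) :
    cHess (fun y => ‖u y‖ ^ 2) z = Matrix.vecMulVec (fun i => fderiv ℂ u z (Pi.single i 1))
      (star fun i => fderiv ℂ u z (Pi.single i 1)) := by
  have hF : ContDiffAt ℂ ω (fun y => ((fun _ => u y) : Fin 1 → ℂ)) z :=
    contDiffAt_pi.2 fun _ => hu
  have h1 : (fun y => ‖u y‖ ^ 2) = fun y => nsq ((fun _ => u y) : Fin 1 → ℂ) := by
    funext y; simp [nsq]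
  rw [h1]
  ext j k
  rw [cHess_nsq hF]
  have hd : DifferentiableAt ℂ u z := hu.differentiableAt (by simp)
  simp only [Fin.sum_univ_one, dz_of_holo hd, Matrix.vecMulVec_apply, Pi.star_apply]
  rfl

/-- `i∂∂̄ log (1 + |u|²) = ∂u ∧ ∂̄ū / (1 + |u|²)²` -/
lemma cHess_log1 (hu : ContDiffAt ℂ ω u z) :
    cHess (fun y => Real.log (1 + ‖u y‖ ^ 2)) z =
      ((((1 + ‖u z‖ ^ 2) ^ 2)⁻¹ : ℝ) : ℂ) •
        Matrix.vecMulVec (fun i => fderiv ℂ u z (Pi.single i 1))
          (star fun i => fderiv ℂ u z (Pi.single i 1)) := by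
  have hF : ContDiffAt ℂ ω (fun y => (![1, u y] : Fin 2 → ℂ)) z := by
    refine contDiffAt_pi.2 fun i => ?_
    fin_cases i
    · exact contDiffAt_const
    · exact hu
  have h1 : (fun y => Real.log (1 + ‖u y‖ ^ 2)) =
      fun y => Real.log (nsq (![1, u y] : Fin 2 → ℂ)) := by
    funext y; simp [nsq, Fin.sum_univ_two]
  have hd : DifferentiableAt ℂ u z := hu.differentiableAt (by simp)
  have h0 : (![1, u z] : Fin 2 → ℂ) ≠ 0 := fun h => by
    have := congrFun h 0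
    simp at this
  rw [h1]
  ext j k
  have h2 := fsM_apply hF h0 j k
  unfold fsM at h2
  rw [h2]
  have hn : nsq (![1, u z] : Fin 2 → ℂ) = 1 + ‖u z‖ ^ 2 := by
    simp [nsq, Fin.sum_univ_two]
  have e0 : ∀ i : Fin n, dz i (fun y : Cm n => (1 : ℂ)) z = 0 := by
    intro i
    rw [dz_of_holo (differentiableAt_const _)]
    simp
  have e1 : ∀ i : Fin n, dz i (fun y : Cm n => u y) z = fderiv ℂ u z (Pi.single i 1) :=
    fun i => dz_of_holo hd
  simp only [Fin.sum_univ_two, hn, Matrix.cons_val_zero,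
    Matrix.cons_val_one, Matrix.smul_apply, Matrix.vecMulVec_apply, Pi.star_apply, smul_eq_mul,
    e0, e1, zero_mul, zero_add]
  have hc0 : cj (0 : ℂ) = 0 := by simp [cj]
  rw [hc0, mul_zero, zero_add]
  have hpos : (0 : ℝ) < 1 + ‖u z‖ ^ 2 := by positivity
  have hne : (((1 + ‖u z‖ ^ 2 : ℝ)) : ℂ) ≠ 0 := by exact_mod_cast hpos.ne'
  have hs : cj (u z) * u z = ((‖u z‖ ^ 2 : ℝ) : ℂ) := by
    show (starRingEnd ℂ) (u z) * u z = _
    rw [mul_comm, Complex.mul_conj, Complex.normSq_eq_norm_sq]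
  have hst : (star (fderiv ℂ u z (Pi.single k 1)) : ℂ) = cj (fderiv ℂ u z (Pi.single k 1)) := rfl
  rw [hst]
  set a := fderiv ℂ u z (Pi.single j 1) with ha
  set b := cj (fderiv ℂ u z (Pi.single k 1)) with hb
  have e3 : a * cj (u z) * (u z * b) = (cj (u z) * u z) * (a * b) := by ring
  rw [e3, hs]
  have e4 : ((((1 + ‖u z‖ ^ 2) ^ 2)⁻¹ : ℝ) : ℂ) = ((((1 + ‖u z‖ ^ 2 : ℝ)) : ℂ) ^ 2)⁻¹ := by
    push_cast; rfl
  have e5 : ((‖u z‖ ^ 2 : ℝ) : ℂ) = ((1 + ‖u z‖ ^ 2 : ℝ) : ℂ) - 1 := by push_cast; ring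
  rw [e4, e5]
  field_simp
  ring

end loc

section man

variable {n : ℕ} {X : Type} [TopologicalSpace X] [ChartedSpace (Cm n) X]
  [IsManifold 𝓘(ℂ, Cm n) ω X] {g : D.FormM n X} {u : X → ℝ} {e : Chart n X} {x : X}

/-- the Laplacian in any chart, for a function smooth near `x` -/
lemma lapX_loc (hg : IsHermitian g) (hx : At e x)
    (hu : ContDiffAt ℝ 2 (fun z => u (e.symm z)) (e x)) :
    lapX g u x = ((g e (e x))⁻¹ * cHess (fun z => u (e.symm z)) (e x)).trace.re := by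
  rw [lapX_def']
  have h1 := hg.change (chartAt (Cm n) x) e x (at_chartAt x) hx
  have h2 := cHess_change (at_chartAt x) hx hu
  show (((g (chartAt (Cm n) x) (chartAt (Cm n) x x))⁻¹ *
    cHess (fun z => u ((chartAt (Cm n) x).symm z)) (chartAt (Cm n) x x)).trace.re) = _
  rw [h1, h2, trace_form (jacM_isUnit (at_chartAt x) hx)]

/-- the Laplacian of `log (1 + |u|²)`, `u` holomorphic near `x` -/
theorem lapX_log1 (hg : IsHermitian g) (hx : At e x) {H : X → ℂ}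
    (hH : ContDiffAt ℂ ω (fun z => H (e.symm z)) (e x)) :
    lapX g (fun z => Real.log (1 + ‖H z‖ ^ 2)) x = ((1 + ‖H x‖ ^ 2) ^ 2)⁻¹ *
      qf (g e (e x)) (fun i => fderiv ℂ (fun z => H (e.symm z)) (e x) (Pi.single i 1)) := by
  have h1 : ContDiffAt ℝ 2 (fun z => Real.log (1 + ‖H (e.symm z)‖ ^ 2)) (e x) := by
    have h2 : ContDiffAt ℝ 2 (fun z => H (e.symm z)) (e x) :=
      (hH.restrict_scalars ℝ).of_le (by simp)
    refine ContDiffAt.log (contDiffAt_const.add (h2.norm_sq ℝ)) ?_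
    positivity
  rw [lapX_loc hg hx h1, cHess_log1 hH, qf_smul_eq, hx.left_inv]

/-- the Laplacian of `|u|²`, `u` holomorphic near `x` -/
theorem lapX_sqn (hg : IsHermitian g) (hx : At e x) {H : X → ℂ}
    (hH : ContDiffAt ℂ ω (fun z => H (e.symm z)) (e x)) :
    lapX g (fun z => ‖H z‖ ^ 2) x =
      qf (g e (e x)) (fun i => fderiv ℂ (fun z => H (e.symm z)) (e x) (Pi.single i 1)) := by
  have h1 : ContDiffAt ℝ 2 (fun z => ‖H (e.symm z)‖ ^ 2) (e x) := by
    have h2 : ContDiffAt ℝ 2 (fun z => H (e.symm z)) (e x) :=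
      (hH.restrict_scalars ℝ).of_le (by simp)
    exact h2.norm_sq ℝ
  rw [lapX_loc hg hx h1, cHess_sqn hH]
  rfl

end man

end Vale.Agent.P281.H413.NU
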