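import Vale.Agent.P281.H342.NU.Iface3
import Vale.Agent.P281.H413.NU.Loc

/-! P281 (helper413): theorem NU, row N8 (e): `LapPart`. -/

open scoped Manifold ContDiff Topology ComplexOrder
open Set Filter

set_option linter.all false

noncomputable section

namespace Vale.Agent.P281.H413.NU

open Vale.Agent.P272.K Vale.Agent.P272.K.AMP Vale.Agent.P281 Vale.Agent.P281.H949.GM
open Vale.Agent.P299
open Vale.Agent.P281.H342.NU (IsTube tubeF rowsY bdet)
open Vale.Agent.P299.H882 (qf)

/-- the Laplacian is continuous where the function is smooth -/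
lemma lapX_cont {n : ℕ} {X : Type} [TopologicalSpace X] [ChartedSpace (Cm n) X]
    [IsManifold 𝓘(ℂ, Cm n) ω X] {g : D.FormM n X} (hg : IsHermitian g) {u : X → ℝ} {e : Chart n X}
    {x : X} (hx : At e x) (hu : ContDiffAt ℝ ∞ (fun z => u (e.symm z)) (e x)) :
    ContinuousAt (lapX g u) x := by
  have h1 : ContinuousAt (fun w => trE g (hess (n := n) u) e w) (e x) :=
    (contDiffAt_trE (b := hess (n := n) u) hg
      (fun i j => contDiffAt_cHess hu (le_of_eq rfl) i j) hx).continuousAt
  have h2 : ContinuousAt (fun z => trE g (hess (n := n) u) e (e z)) x :=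
    ContinuousAt.comp (f := e) h1 (e.continuousAt hx.2)
  refine h2.congr ?_
  have h3 : ∀ᶠ w in 𝓝 (e x), ContDiffAt ℝ 2 (fun z => u (e.symm z)) w := by
    have h4 : ContDiffAt ℝ 2 (fun z => u (e.symm z)) (e x) := hu.of_le (by norm_cast)
    exact h4.eventually (by simp)
  filter_upwards [(e.continuousAt hx.2).eventually h3, e.open_source.mem_nhds hx.2] with z hz hz2
  exact (lapX_loc hg ⟨hx.1, hz2⟩ hz).symm

/-- **Row N8 (e)** -/
theorem lapPart : Vale.Agent.P281.H342.NU.LapPart := by
  intro n p X _ _ _ _ _ _ O y W hT V hV hVW h hh b₀ hb hc hs hb0 g hg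
  have hsW : tsupport b₀ ⊆ W := hs.trans hVW
  have hclosed : IsClosed {x | x ∈ O ∧ y x ∈ tsupport b₀} := (hT.proper _ hc hsW).isClosed
  have hol : ∀ e : Chart n X, ∀ x, At e x → x ∈ O → y x ∈ V →
      ContDiffAt ℂ ω (fun z => h (y (e.symm z))) (e x) := by
    intro e x hx hO hyV
    have h1 : ContDiffAt ℂ ω h (y (e.symm (e x))) := by
      rw [hx.left_inv]; exact (hh _ hyV).contDiffAt
    exact h1.comp (e x) (hol_chart hT hx hO)
  have hzero : ∀ x, x ∉ {x | x ∈ O ∧ y x ∈ tsupport b₀} → tubeF O y b₀ x = 0 := by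
    intro x hx
    unfold tubeF
    split_ifs with hO
    · exact image_eq_zero_of_notMem_tsupport fun h4 => hx ⟨hO, h4⟩
    · rfl
  constructor
  · rw [continuous_iff_continuousAt]
    intro x
    by_cases hx : x ∈ {x | x ∈ O ∧ y x ∈ tsupport b₀}
    · obtain ⟨hO, hy⟩ := hx
      have hyV : y x ∈ V := hs hy
      set e : Chart n X := chartAt (Cm n) x with he
      have hex : At e x := at_chartAt x
      have h1 : ContinuousAt (tubeF O y b₀) x := by
        refine ContinuousAt.congr ?_ (tubeF_mem hT hO).symm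
        exact ContinuousAt.comp (f := y) hb.continuousAt (cont_tube hT hO)
      have h2 : ContDiffAt ℝ ∞ (fun z => Real.log (1 + ‖h (y (e.symm z))‖ ^ 2)) (e x) := by
        have h3 : ContDiffAt ℝ ∞ (fun z => h (y (e.symm z))) (e x) :=
          ((hol e x hex hO hyV).restrict_scalars ℝ).of_le (by simp)
        refine ContDiffAt.log (contDiffAt_const.add (h3.norm_sq ℝ)) ?_
        positivity
      exact h1.mul (lapX_cont hg.toIsHermitian hex h2)
    · have h1 : (fun x => tubeF O y b₀ x *
          lapX g (fun z => Real.log (1 + ‖h (y z)‖ ^ 2)) x) =ᶠ[𝓝 x] fun _ => 0 := by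
        filter_upwards [hclosed.isOpen_compl.mem_nhds hx] with z hz
        rw [hzero z hz, zero_mul]
      exact continuousAt_const.congr h1.symm
  · intro x
    by_cases hx : x ∈ {x | x ∈ O ∧ y x ∈ tsupport b₀}
    · obtain ⟨hO, hy⟩ := hx
      have hyV : y x ∈ V := hs hy
      have hex : At (chartAt (Cm n) x : Chart n X) x := at_chartAt x
      have h1 := lapX_log1 (g := g) (H := fun z => h (y z)) hg.toIsHermitian hex
        (hol _ x hex hO hyV)
      rw [h1]
      have h2 : 0 ≤ tubeF O y b₀ x := by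
        unfold tubeF; rw [if_pos hO]; exact hb0 _
      exact mul_nonneg h2 (mul_nonneg (by positivity)
        (Vale.Agent.P299.H882.qf_nonneg (hg.posDef _ x hex) _))
    · rw [hzero x hx, zero_mul]

end Vale.Agent.P281.H413.NU
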