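import Vale.Agent.P281.H413.NU.Loc

/-! P281 (helper413): theorem NU, row N8 (a): the matrix of differentials. -/

open scoped Manifold ContDiff Topology ComplexOrder
open Set Filter

set_option linter.all false

noncomputable section

namespace Vale.Agent.P281.H413.NU

open Vale.Agent.P272.K Vale.Agent.P272.K.AMP Vale.Agent.P281 Vale.Agent.P281.H949.GM
open Vale.Agent.P299 Vale.Agent.P281.H713.KD
open Vale.Agent.P281.H342.NU (IsTube tubeF rowsY bdet)
open Vale.Agent.P299.H882 (qf)

/-- completion of an independent family -/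
lemma exists_compl {K V : Type*} [Field K] [AddCommGroup V] [Module K V] [FiniteDimensional K V]
    {k : ℕ} {v : Fin k → V} (hv : LinearIndependent K v) :
    ∀ m : ℕ, k + m ≤ Module.finrank K V →
      ∃ L : Fin (k + m) → V, LinearIndependent K L ∧ ∀ j : Fin k, L (Fin.castAdd m j) = v j := by
  intro m
  induction m with
  | zero => intro _; exact ⟨v, hv, fun j => rfl⟩
  | succ m ih =>
    intro hm
    obtain ⟨L, hL, hLv⟩ := ih (by omega)
    obtain ⟨x, hx⟩ := exists_linearIndependent_snoc_of_lt_finrank hL (by omega)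
    refine ⟨Fin.snoc L x, hx, fun j => ?_⟩
    have : Fin.castAdd (m + 1) j = Fin.castSucc (Fin.castAdd m j) := rfl
    rw [this]
    have h2 := Fin.snoc_castSucc (α := fun _ => V) (x := x) (p := L) (i := Fin.castAdd m j)
    rw [← hLv j]
    exact h2

variable {k m : ℕ}

/-- the matrix with rows `dh_j`, and constant rows -/
def cM (h : Fin k → Cm (k + m) → ℂ) (L : Fin (k + m) → (Cm (k + m) →L[ℂ] ℂ)) (q : Cm (k + m)) :
    Matrix (Fin (k + m)) (Fin (k + m)) ℂ :=
  Matrix.of fun i a => Fin.addCases (motive := fun _ => ℂ)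
    (fun j => fderiv ℂ (h j) q (Pi.single a 1))
    (fun i' => L (Fin.natAdd k i') (Pi.single a 1)) i

lemma cM_left (h : Fin k → Cm (k + m) → ℂ) (L : Fin (k + m) → (Cm (k + m) →L[ℂ] ℂ))
    (q : Cm (k + m)) (j : Fin k) (a : Fin (k + m)) :
    cM h L q (Fin.castAdd m j) a = fderiv ℂ (h j) q (Pi.single a 1) := by
  simp [cM]

lemma cM_right (h : Fin k → Cm (k + m) → ℂ) (L : Fin (k + m) → (Cm (k + m) →L[ℂ] ℂ))
    (q : Cm (k + m)) (j : Fin m) (a : Fin (k + m)) :
    cM h L q (Fin.natAdd k j) a = L (Fin.natAdd k j) (Pi.single a 1) := by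
  simp [cM]

lemma cM_cont {h : Fin k → Cm (k + m) → ℂ} {L : Fin (k + m) → (Cm (k + m) →L[ℂ] ℂ)}
    {q : Cm (k + m)} (hh : ∀ j, AnalyticAt ℂ (h j) q) :
    ContinuousAt (fun q => (cM h L q).det) q := by
  have h1 : ContinuousAt (fun q => cM h L q) q := by
    refine continuousAt_pi.2 fun i => continuousAt_pi.2 fun a => ?_
    refine Fin.addCases (fun j => ?_) (fun j => ?_) i
    · simp only [cM_left]
      have h2 : ContinuousAt (fun q => fderiv ℂ (h j) q) q := (hh j).fderiv.continuousAt
      exact h2.clm_apply continuousAt_const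
    · simp only [cM_right]
      exact continuousAt_const
  exact ContinuousAt.comp (g := Matrix.det) (Continuous.matrix_det continuous_id).continuousAt h1

lemma cM_det {h : Fin k → Cm (k + m) → ℂ} {L : Fin (k + m) → (Cm (k + m) →L[ℂ] ℂ)}
    {q : Cm (k + m)} (hL : LinearIndependent ℂ L)
    (hh : ∀ j : Fin k, L (Fin.castAdd m j) = fderiv ℂ (h j) q) : (cM h L q).det ≠ 0 := by
  have h1 : ∀ i a, cM h L q i a = L i (Pi.single a 1) := by
    intro i a
    refine Fin.addCases (fun j => ?_) (fun j => ?_) i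
    · rw [cM_left, hh]
    · rw [cM_right]
  let φ : (Cm (k + m) →L[ℂ] ℂ) →ₗ[ℂ] (Fin (k + m) → ℂ) :=
    { toFun := fun l a => l (Pi.single a 1)
      map_add' := fun l l' => by funext a; simp
      map_smul' := fun c l => by funext a; simp }
  have hφ : LinearMap.ker φ = ⊥ := by
    rw [LinearMap.ker_eq_bot']
    intro l hl
    ext v
    have h2 : v = ∑ a, v a • (Pi.single a 1 : Cm (k + m)) := by
      funext b
      simp [Finset.sum_apply, Pi.single_apply]
    rw [h2, map_sum]
    refine Finset.sum_eq_zero fun a _ => ?_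
    have h3 : l (Pi.single a 1) = 0 := congrFun hl a
    rw [map_smul, h3, smul_zero]
  have h4 := hL.map' φ hφ
  have h5 : (φ ∘ L) = (cM h L q).row := by
    funext i a
    exact (h1 i a).symm
  rw [h5, Matrix.linearIndependent_rows_iff_isUnit] at h4
  exact ((Matrix.isUnit_iff_isUnit_det _).1 h4).ne_zero

end Vale.Agent.P281.H413.NU
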