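import Vale.Agent.P281.H342.NU.Iface2
import Vale.Agent.P281.H413.NU.PtA

/-! P281 (helper413): theorem NU, row N8 (a): `PtPart`. -/

open scoped Manifold ContDiff Topology ComplexOrder
open Set Filter

set_option linter.all false

noncomputable section

namespace Vale.Agent.P281.H413.NU

open Vale.Agent.P272.K Vale.Agent.P272.K.AMP Vale.Agent.P281 Vale.Agent.P281.H949.GM
open Vale.Agent.P299 Vale.Agent.P281.H713.KD
open Vale.Agent.P281.H342.NU (IsTube tubeF rowsY bdet)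
open Vale.Agent.P299.H882 (qf)

lemma gramD_mul {n p : ℕ} (c : Matrix (Fin p) (Fin p) ℂ) (b : Matrix (Fin p) (Fin n) ℂ)
    (g : Matrix (Fin n) (Fin n) ℂ) : gramD (c * b) g = ‖c.det‖ ^ 2 * gramD b g := by
  unfold gramD
  have e : (c * b) * (g⁻¹).transpose * (c * b).conjTranspose =
      c * (b * (g⁻¹).transpose * b.conjTranspose) * c.conjTranspose := by
    rw [Matrix.conjTranspose_mul]
    simp only [Matrix.mul_assoc]
  rw [e, Matrix.det_mul, Matrix.det_mul, Matrix.det_conjTranspose]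
  have e2 : c.det * (b * (g⁻¹).transpose * b.conjTranspose).det * star c.det =
      ((‖c.det‖ ^ 2 : ℝ) : ℂ) * (b * (g⁻¹).transpose * b.conjTranspose).det := by
    rw [mul_right_comm, RCLike.star_def, Complex.mul_conj, Complex.normSq_eq_norm_sq]
  rw [e2, Complex.re_ofReal_mul]

/-- the constant rows are bounded -/
lemma const_rows {n p : ℕ} {X : Type} [TopologicalSpace X] [T2Space X] [CompactSpace X]
    [ChartedSpace (Cm n) X] [IsManifold 𝓘(ℂ, Cm n) ω X] {χ : D.FormM n X} (hχ : IsHermitian χ)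
    {O : Set X} {y : X → Cm p} {W : Set (Cm p)} (hT : IsTube (n := n) O y W) {y₁ : Cm p} {r : ℝ}
    (hr : 0 < r) (hrW : Metric.closedBall y₁ (2 * r) ⊆ W) (L : Cm p →L[ℂ] ℂ) :
    ∃ C : ℝ, ∀ e x, At e x → x ∈ O → y x ∈ Metric.ball y₁ r →
      qf (χ e (e x)) (fun i => ∑ a, L (Pi.single a 1) * rowsY y e (e x) a i) ≤ C := by
  let b₁ : ContDiffBump y₁ := ⟨r, 2 * r, hr, by linarith⟩
  set b₀ : Cm p → ℝ := fun q => b₁ q * ‖L q‖ ^ 2 with hb₀
  have hsm : ContDiff ℝ ∞ b₀ := by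
    refine b₁.contDiff.mul ?_
    have h1 : ContDiff ℝ ∞ (fun q => L q) := (L.restrictScalars ℝ).contDiff
    exact h1.norm_sq ℝ
  have hcs : HasCompactSupport b₀ := b₁.hasCompactSupport.mul_right
  have hts : tsupport b₀ ⊆ W := by
    refine (tsupport_mul_subset_left).trans ?_
    rw [b₁.tsupport_eq]
    exact hrW
  have hF := smooth_tubeF (n := n) hT hsm hcs hts
  have hc : Continuous (lapX χ (tubeF O y b₀)) := INT.SmoothFn.continuous (smoothFn_lapX hχ hF)
  obtain ⟨C, hC⟩ := (isCompact_range hc).bddAbove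
  refine ⟨C, fun e x hx hO hy => ?_⟩
  have h1 : tubeF O y b₀ =ᶠ[𝓝 x] fun z => ‖L (y z)‖ ^ 2 := by
    have h2 : ∀ᶠ z in 𝓝 x, y z ∈ Metric.ball y₁ r :=
      (cont_tube hT hO).eventually_mem (Metric.isOpen_ball.mem_nhds hy)
    filter_upwards [tubeF_mem (b₀ := b₀) hT hO, h2] with z hz hz2
    rw [hz]
    show b₁ (y z) * ‖L (y z)‖ ^ 2 = _
    rw [b₁.one_of_mem_closedBall (Metric.ball_subset_closedBall hz2), one_mul]
  have hol : ContDiffAt ℂ ω (fun z => L (y (e.symm z))) (e x) :=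
    L.contDiff.contDiffAt.comp (e x) (hol_chart hT hx hO)
  have h3 := lapX_sqn (g := χ) (H := fun z => L (y z)) hχ hx hol
  have h4 : lapX χ (tubeF O y b₀) x = lapX χ (fun z => ‖L (y z)‖ ^ 2) x := by
    rw [lapX_def', lapX_def']
    have h5 : hess (tubeF O y b₀) (chartAt (Cm n) x) (chartAt (Cm n) x x) =
        hess (fun z => ‖L (y z)‖ ^ 2) (chartAt (Cm n) x) (chartAt (Cm n) x x) :=
      cHess_congr ((tsymm (at_chartAt x)).eventually h1)
    rw [h5]
  have h6 : (fun i => fderiv ℂ (fun z => L (y (e.symm z))) (e x) (Pi.single i 1)) =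
      fun i => ∑ a, L (Pi.single a 1) * rowsY y e (e x) a i := by
    funext i
    rw [row_comp hT hx hO (H := L) L.differentiableAt i, L.fderiv]
  have h7 : (fun i => fderiv ℂ (fun z => (fun z => L (y z)) (e.symm z)) (e x) (Pi.single i 1)) =
      fun i => ∑ a, L (Pi.single a 1) * rowsY y e (e x) a i := h6
  rw [h7] at h3
  rw [← h3, ← h4]
  exact hC (mem_range_self x)

/-- **Row N8 (a)** -/
theorem ptPart : Vale.Agent.P281.H342.NU.PtPart := by
  intro n p d k hn hk X _ _ _ _ _ _ χ hχ O y W hT y₁ hy₁ h hh hLI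
  obtain ⟨m, rfl⟩ := Nat.exists_eq_add_of_le hk
  haveI : FiniteDimensional ℂ (Cm (k + m) →L[ℂ] ℂ) :=
    LinearEquiv.finiteDimensional
      (LinearMap.toContinuousLinearMap : (Cm (k + m) →ₗ[ℂ] ℂ) ≃ₗ[ℂ] (Cm (k + m) →L[ℂ] ℂ))
  have hfin : Module.finrank ℂ (Cm (k + m) →L[ℂ] ℂ) = k + m := by
    rw [← (LinearMap.toContinuousLinearMap :
      (Cm (k + m) →ₗ[ℂ] ℂ) ≃ₗ[ℂ] (Cm (k + m) →L[ℂ] ℂ)).finrank_eq]
    have := Subspace.dual_finrank_eq (K := ℂ) (V := Cm (k + m))
    rw [Module.finrank_fin_fun] at this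
    exact this
  obtain ⟨L, hL, hLv⟩ := exists_compl hLI m (by rw [hfin])
  have hdet := cM_det (h := h) (L := L) hL hLv
  have hcont := cM_cont (L := L) hh
  set ε₀ : ℝ := ‖(cM h L y₁).det‖ / 2 with hε₀
  have hdn : 0 < ‖(cM h L y₁).det‖ := norm_pos_iff.2 hdet
  have hε : 0 < ε₀ := by positivity
  set T₀ : ℝ := ∑ j, ‖h j y₁‖ + 1 with hT₀
  have hT₀1 : 1 ≤ T₀ := by
    have : 0 ≤ ∑ j, ‖h j y₁‖ := Finset.sum_nonneg fun j _ => norm_nonneg _
    linarith
  have hT₀j : ∀ j, ‖h j y₁‖ < T₀ := fun j => by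
    have := Finset.single_le_sum (f := fun j => ‖h j y₁‖) (fun i _ => norm_nonneg _)
      (Finset.mem_univ j)
    linarith
  have hev : ∀ᶠ q in 𝓝 y₁, q ∈ W ∧ (∀ j, AnalyticAt ℂ (h j) q) ∧ ε₀ < ‖(cM h L q).det‖ ∧
      ∀ j, ‖h j q‖ < T₀ := by
    have hW1 : ∀ᶠ q in 𝓝 y₁, q ∈ W := hT.openW.mem_nhds hy₁
    refine hW1.and ((eventually_all.2 fun j =>
      (hh j).eventually_analyticAt).and (Eventually.and ?_ (eventually_all.2 fun j => ?_)))
    · exact continuousAt_const.eventually_lt hcont.norm (by rw [hε₀]; linarith)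
    · exact (hh j).continuousAt.norm.eventually_lt continuousAt_const (hT₀j j)
  obtain ⟨R₀, hR₀, hball⟩ := Metric.eventually_nhds_iff_ball.1 hev
  set r : ℝ := R₀ / 4 with hr
  have hr0 : 0 < r := by positivity
  have hrW : Metric.closedBall y₁ (2 * r) ⊆ W := fun q hq =>
    (hball q (Metric.closedBall_subset_ball (by rw [hr]; linarith) hq)).1
  have hrR : Metric.ball y₁ r ⊆ Metric.ball y₁ R₀ := Metric.ball_subset_ball (by rw [hr]; linarith)
  choose C' hC' using fun i : Fin m => const_rows (n := n) hχ.toIsHermitian hT hr0 hrW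
    (L (Fin.natAdd k i))
  set C : ℝ := ∑ i, |C' i| + 1 with hC
  have hC0 : 0 < C := by
    have : 0 ≤ ∑ i, |C' i| := Finset.sum_nonneg fun i _ => abs_nonneg _
    linarith
  have hCi : ∀ i, C' i ≤ C := fun i => by
    have := Finset.single_le_sum (f := fun i => |C' i|) (fun i _ => abs_nonneg _)
      (Finset.mem_univ i)
    have h2 := le_abs_self (C' i)
    linarith
  set T : ℝ := (1 + T₀ ^ 2) ^ 2 with hTdef
  have hTpos : 0 < T := by positivity
  refine ⟨Metric.ball y₁ r, Metric.isOpen_ball, Metric.mem_ball_self hr0,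
    fun q hq => (hball q (hrR hq)).1, fun j q hq => (hball q (hrR hq)).2.1 j,
    (ε₀ ^ 2)⁻¹ * (((k + m).factorial : ℝ) * C ^ m * T ^ k), by positivity, ?_⟩
  intro g G hg hG e x hx hO hy
  obtain ⟨hW, han, hcd, hhb⟩ := hball (y x) (hrR hy)
  set c := cM h L (y x) with hc
  set b := rowsY y e (e x) with hb
  have hgp := hg.posDef e x hx
  have hGp := hG.posDef e x hx
  have hχp := hχ.posDef e x hx
  have hBl : ∀ j : Fin k, (c * b) (Fin.castAdd m j) =
      fun i => fderiv ℂ (fun z => h j (y (e.symm z))) (e x) (Pi.single i 1) := by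
    intro j
    funext i
    rw [row_comp hT hx hO (han j).differentiableAt i, Matrix.mul_apply]
    exact Finset.sum_congr rfl fun a _ => by rw [hc, cM_left]
  have hBr : ∀ i' : Fin m, (c * b) (Fin.natAdd k i') =
      fun i => ∑ a, L (Fin.natAdd k i') (Pi.single a 1) * rowsY y e (e x) a i := by
    intro j
    funext i
    rw [Matrix.mul_apply]
    exact Finset.sum_congr rfl fun a _ => by rw [hc, cM_right]
  have hlap : ∀ j : Fin k, lapX g (fun z => Real.log (1 + ‖h j (y z)‖ ^ 2)) x =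
      ((1 + ‖h j (y x)‖ ^ 2) ^ 2)⁻¹ * qf (g e (e x)) ((c * b) (Fin.castAdd m j)) := by
    intro j
    have hol : ContDiffAt ℂ ω (fun z => h j (y (e.symm z))) (e x) := by
      have h1 : ContDiffAt ℂ ω (h j) (y (e.symm (e x))) := by
        rw [hx.left_inv]; exact (han j).contDiffAt
      exact h1.comp (e x) (hol_chart hT hx hO)
    have := lapX_log1 (g := g) (H := fun z => h j (y z)) hg.toIsHermitian hx hol
    rw [hBl j]
    exact this
  have hq0 : ∀ j : Fin k, 0 ≤ qf (g e (e x)) ((c * b) (Fin.castAdd m j)) := fun j =>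
    Vale.Agent.P299.H882.qf_nonneg hgp _
  have ht : ∀ j : Fin k, qf (g e (e x)) ((c * b) (Fin.castLE hk j)) ≤
      T * lapX g (fun z => Real.log (1 + ‖h j (y z)‖ ^ 2)) x := by
    intro j
    have e1 : Fin.castLE hk j = Fin.castAdd m j := rfl
    rw [e1, hlap j]
    have h2 : (1 + ‖h j (y x)‖ ^ 2) ^ 2 ≤ T := by
      rw [hTdef]
      have h3 : ‖h j (y x)‖ ^ 2 ≤ T₀ ^ 2 := pow_le_pow_left₀ (norm_nonneg _) (hhb j).le 2
      exact pow_le_pow_left₀ (by positivity) (by linarith) 2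
    have h4 : 0 < (1 + ‖h j (y x)‖ ^ 2) ^ 2 := by positivity
    have h5 : 1 ≤ T * ((1 + ‖h j (y x)‖ ^ 2) ^ 2)⁻¹ := by
      rw [← div_eq_mul_inv, le_div_iff₀ h4]; linarith
    have := mul_le_mul_of_nonneg_right h5 (hq0 j)
    linarith
  have hCb : ∀ a : Fin (k + m), k ≤ a.1 → qf (χ e (e x)) ((c * b) a) ≤ C := by
    intro a ha
    obtain ⟨i, rfl⟩ : ∃ i : Fin m, a = Fin.natAdd k i :=
      ⟨⟨a.1 - k, by omega⟩, by ext; simp; omega⟩
    rw [hBr i]
    exact (hC' i e x hx hO hy).trans (hCi i)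
  have key := pt_le (b := c * b) hgp hGp hχp hk hCb
    (fun j => T * lapX g (fun z => Real.log (1 + ‖h j (y z)‖ ^ 2)) x) ht
  have hd : n - (k + m) = d := by omega
  have hm : k + m - k = m := by omega
  rw [hd, hm, gramD_mul, Finset.prod_mul_distrib, Finset.prod_const, Finset.card_univ,
    Fintype.card_fin] at key
  have htr1 : trX g G x = ((g e (e x))⁻¹ * G e (e x)).trace.re :=
    trX_eq hg.toIsHermitian hG.toIsHermitian.isForm hx
  have htr2 : trX g χ x = ((g e (e x))⁻¹ * χ e (e x)).trace.re :=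
    trX_eq hg.toIsHermitian hχ.toIsHermitian.isForm hx
  rw [htr1, htr2, hm, bdet_eq b hGp]
  set P := ∏ j, lapX g (fun z => Real.log (1 + ‖h j (y z)‖ ^ 2)) x with hP
  set t1 := ((g e (e x))⁻¹ * G e (e x)).trace.re
  set t2 := ((g e (e x))⁻¹ * χ e (e x)).trace.re
  set dg := (g e (e x)).det.re
  have hb0 : 0 ≤ (G e (e x)).det.re * gramD b (G e (e x)) :=
    mul_nonneg (Complex.le_def.1 hGp.det_pos.le).1 (gram_nonneg hGp)
  have h8 : ε₀ ^ 2 * ((G e (e x)).det.re * gramD b (G e (e x))) ≤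
      ((k + m).factorial : ℝ) * C ^ m * T ^ k * (t1 ^ d * P * t2 ^ m) * dg := by
    calc ε₀ ^ 2 * ((G e (e x)).det.re * gramD b (G e (e x)))
        ≤ ‖c.det‖ ^ 2 * ((G e (e x)).det.re * gramD b (G e (e x))) :=
          mul_le_mul_of_nonneg_right (pow_le_pow_left₀ hε.le hcd.le 2) hb0
      _ = ‖c.det‖ ^ 2 * gramD b (G e (e x)) * (G e (e x)).det.re := by ring
      _ ≤ _ := key
      _ = _ := by ring
  have h9 : (G e (e x)).det.re * gramD b (G e (e x)) ≤
      (ε₀ ^ 2)⁻¹ * (((k + m).factorial : ℝ) * C ^ m * T ^ k * (t1 ^ d * P * t2 ^ m) * dg) := by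
    rw [← div_eq_inv_mul, le_div_iff₀ (by positivity), mul_comm]
    exact h8
  refine h9.trans (le_of_eq ?_)
  ring

end Vale.Agent.P281.H413.NU
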