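import Vale.Agent.P281.H342.NU.Iface
import Vale.Agent.P281.H413.NU.Rows
import Vale.Agent.P281.H949.GM.F
import Vale.Agent.P299.H223.FSLocal

/-! P281 (helper413): theorem NU: tubes. -/

open scoped Manifold ContDiff Topology ComplexOrder
open Set Filter

set_option linter.all false

noncomputable section

namespace Vale.Agent.P281.H413.NU

open Vale.Agent.P272.K Vale.Agent.P272.K.AMP Vale.Agent.P281 Vale.Agent.P281.H949.GM
open Vale.Agent.P281.H342.NU (IsTube tubeF rowsY bdet)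
open Vale.Agent.P299.H882 (qf)

section tube

variable {n p : ℕ} {X : Type} [TopologicalSpace X] [ChartedSpace (Cm n) X]
  [IsManifold 𝓘(ℂ, Cm n) ω X]
  {O : Set X} {y : X → Cm p} {W : Set (Cm p)} {b₀ : Cm p → ℝ} {e : Chart n X} {x : X}

/-- `y` in a chart -/
lemma hol_chart (h : IsTube (n := n) O y W) (hx : At e x) (hO : x ∈ O) :
    ContDiffAt ℂ ω (fun z => y (e.symm z)) (e x) := by
  rw [← contMDiffAt_iff_contDiffAt]
  refine ContMDiffAt.comp (e x) (g := y) ?_ (chart_symm_contMDiffAt hx.1 hx.mem_target)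
  rw [hx.left_inv]
  exact h.hol x hO

lemma cont_tube (h : IsTube (n := n) O y W) (hO : x ∈ O) : ContinuousAt y x :=
  (h.hol x hO).continuousAt

omit [IsManifold 𝓘(ℂ, Cm n) ω X] in
lemma tubeF_mem (h : IsTube (n := n) O y W) (hO : x ∈ O) :
    tubeF O y b₀ =ᶠ[𝓝 x] fun z => b₀ (y z) := by
  filter_upwards [h.isOpen.mem_nhds hO] with z hz
  simp only [tubeF, if_pos hz]

omit [IsManifold 𝓘(ℂ, Cm n) ω X] in
lemma tubeF_notMem [T2Space X] (h : IsTube (n := n) O y W) (hc : HasCompactSupport b₀)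
    (hs : tsupport b₀ ⊆ W) (hO : x ∉ O) : tubeF O y b₀ =ᶠ[𝓝 x] fun _ => 0 := by
  have h1 : IsClosed {x | x ∈ O ∧ y x ∈ tsupport b₀} := (h.proper _ hc hs).isClosed
  have h2 : {x | x ∈ O ∧ y x ∈ tsupport b₀}ᶜ ∈ 𝓝 x :=
    h1.isOpen_compl.mem_nhds fun h3 => hO h3.1
  filter_upwards [h2] with z hz
  unfold tubeF
  split_ifs with hzO
  · exact image_eq_zero_of_notMem_tsupport fun h4 => hz ⟨hzO, h4⟩
  · rfl

/-- **`b₀ ∘ y` is smooth** -/
theorem smooth_tubeF [T2Space X] (h : IsTube (n := n) O y W) (hb : ContDiff ℝ ∞ b₀)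
    (hc : HasCompactSupport b₀) (hs : tsupport b₀ ⊆ W) : SmoothFn (n := n) (tubeF O y b₀) := by
  intro e x hx
  by_cases hO : x ∈ O
  · have h1 : (fun z => tubeF O y b₀ (e.symm z)) =ᶠ[𝓝 (e x)] fun z => b₀ (y (e.symm z)) :=
      (tsymm hx).eventually (tubeF_mem h hO)
    refine ContDiffAt.congr_of_eventuallyEq ?_ h1
    have h2 : ContDiffAt ℝ ∞ (fun z => y (e.symm z)) (e x) :=
      ((hol_chart h hx hO).restrict_scalars ℝ).of_le (by simp)
    exact (hb.contDiffAt (x := y (e.symm (e x)))).comp (e x) h2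
  · have h1 : (fun z => tubeF O y b₀ (e.symm z)) =ᶠ[𝓝 (e x)] fun _ => (0 : ℝ) :=
      (tsymm hx).eventually (tubeF_notMem h hc hs hO)
    exact contDiffAt_const.congr_of_eventuallyEq h1

omit [IsManifold 𝓘(ℂ, Cm n) ω X] in
lemma cont_tubeF [T2Space X] (h : IsTube (n := n) O y W) (hy : ∀ x ∈ O, ContinuousAt y x)
    (hb : Continuous b₀) (hc : HasCompactSupport b₀) (hs : tsupport b₀ ⊆ W) :
    Continuous (tubeF O y b₀) := by
  rw [continuous_iff_continuousAt]
  intro x
  by_cases hO : x ∈ O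
  · refine ContinuousAt.congr ?_ (tubeF_mem h hO).symm
    exact ContinuousAt.comp (f := y) hb.continuousAt (hy x hO)
  · exact continuousAt_const.congr (tubeF_notMem h hc hs hO).symm

end tube

section rows

variable {n p : ℕ} {X : Type} [TopologicalSpace X] [ChartedSpace (Cm n) X]
  [IsManifold 𝓘(ℂ, Cm n) ω X]
  {O : Set X} {y : X → Cm p} {W : Set (Cm p)} {b₀ : Cm p → ℝ} {e e' : Chart n X} {x : X}

/-- the differential of `H ∘ y` in a chart -/
lemma row_comp (h : IsTube (n := n) O y W) (hx : At e x) (hO : x ∈ O) {H : Cm p → ℂ}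
    (hH : DifferentiableAt ℂ H (y x)) (i : Fin n) :
    fderiv ℂ (fun z => H (y (e.symm z))) (e x) (Pi.single i 1) =
      ∑ a, fderiv ℂ H (y x) (Pi.single a 1) * rowsY y e (e x) a i := by
  have hY : DifferentiableAt ℂ (fun z => y (e.symm z)) (e x) :=
    (hol_chart h hx hO).differentiableAt (by simp)
  have hH' : DifferentiableAt ℂ H (y (e.symm (e x))) := by rw [hx.left_inv]; exact hH
  have h1 : fderiv ℂ (fun z => H (y (e.symm z))) (e x) =
      (fderiv ℂ H (y (e.symm (e x)))).comp (fderiv ℂ (fun z => y (e.symm z)) (e x)) :=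
    fderiv_comp (e x) hH' hY
  rw [h1, ContinuousLinearMap.comp_apply, hx.left_inv]
  set v := fderiv ℂ (fun z => y (e.symm z)) (e x) (Pi.single i 1) with hv
  have h2 : v = ∑ a, v a • (Pi.single a 1 : Cm p) := by
    funext b
    simp [Finset.sum_apply, Pi.single_apply]
  have h3 : ∀ a, rowsY y e (e x) a i = v a := by
    intro a
    rw [hv, rowsY, Matrix.of_apply, fderiv_apply hY a]
    rfl
  conv_lhs => rw [h2]
  rw [map_sum]
  refine Finset.sum_congr rfl fun a _ => ?_
  rw [map_smul, smul_eq_mul, h3 a, mul_comm]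

end rows

end Vale.Agent.P281.H413.NU
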